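import Vale.Agent.P179.R2.H12.We
import Vale.Agent.P179.H526.Inert

/-!
# The number of weights of a block with abelian defect group and cyclic inertial quotient
-/

namespace Vale.P179.H999

open P179H524 P179C P179A Finset P179P P179Y Subgroup P179H12

open P179B (inertialGroup inertialIndex regularElements)

open scoped Classical

section

variable {p : ℕ} [hp : Fact p.Prime] {k : Type*} [Field k] [IsAlgClosed k] [CharP k p]
  (red : integralClosure ℤ ℂ →+* k) {G : Type} [Group G] [Fintype G]

/-- **the number of weights** is the inertial index if the inertial quotient is cyclic -/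
theorem weights_eq {B : MonoidAlgebra k G} (hB : IsBlock B) {D : Subgroup G}
    (hD : IsDefectGroup B D) (hab : ∀ a ∈ D, ∀ b ∈ D, a * b = b * a)
    {b : MonoidAlgebra k (centralizer (D : Set G))} (hb : IsBlock b) (hbB : InducesTo b B)
    (hcyc : ∃ t ∈ inertialGroup D b, ∀ n ∈ inertialGroup D b, ∃ i : ℤ,
      t ^ i * n ∈ centralizer (D : Set G)) :
    numWeightsIn p red B = inertialIndex D b := by
  obtain ⟨l, hl, hlz, hlb⟩ := exists_BP_of_subblock (p := p) hB hD hab hb hbB
  have hT := stabT_eq_inertialGroup hb hlb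
  have h1 := numWeightsIn_eq_index red hB hD hab hl hlz (by
    rw [hT]
    obtain ⟨t, ht, hgen⟩ := hcyc
    refine ⟨t, ht, fun x hx => ?_⟩
    obtain ⟨i, hi⟩ := hgen x hx
    have h2 : x = t ^ (-i) * (t ^ i * x) := by
      rw [zpow_neg, inv_mul_cancel_left]
    rw [h2]
    exact mul_mem (mem_sup_right (zpow_mem (mem_zpowers t) _)) (mem_sup_left hi))
  rw [h1, hT]
  rfl

end

/-- the same for finite groups, with natural exponents (the text of `Allb.WEQ`) -/
theorem weights_eq' {p : ℕ} [Fact p.Prime] {k : Type*} [Field k] [IsAlgClosed k] [CharP k p]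
    (red : integralClosure ℤ ℂ →+* k) {G : Type} [Group G] [Finite G] {B : MonoidAlgebra k G}
    (hB : P179C.IsBlock B) {D : Subgroup G} (hD : P179C.IsDefectGroup B D)
    (hab : ∀ x ∈ D, ∀ y ∈ D, x * y = y * x)
    {b : MonoidAlgebra k (Subgroup.centralizer (D : Set G))} (hb : P179C.IsBlock b)
    (hbB : P179C.InducesTo b B)
    (hcyc : ∃ t ∈ P179B.inertialGroup D b, ∀ n ∈ P179B.inertialGroup D b, ∃ i : ℕ,
      t ^ i * n ∈ Subgroup.centralizer (D : Set G)) :
    P179C.numWeightsIn p red B = P179B.inertialIndex D b := by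
  have := Fintype.ofFinite G
  obtain ⟨t, ht, hgen⟩ := hcyc
  refine weights_eq red hB hD hab hb hbB ⟨t, ht, fun n hn => ?_⟩
  obtain ⟨i, hi⟩ := hgen n hn
  exact ⟨i, by rw [zpow_natCast]; exact hi⟩

/-- the text of `Allb.WEQ` -/
theorem weq : ∀ (p : ℕ) [Fact p.Prime] (k : Type) [Field k] [IsAlgClosed k] [CharP k p]
    (red : integralClosure ℤ ℂ →+* k) (G : Type) [Group G] [Finite G] (B : MonoidAlgebra k G),
    P179C.IsBlock B →
    ∀ D : Subgroup G, P179C.IsDefectGroup B D → (∀ x ∈ D, ∀ y ∈ D, x * y = y * x) →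
    ∀ b : MonoidAlgebra k (Subgroup.centralizer (D : Set G)), P179C.IsBlock b →
    P179C.InducesTo b B →
    (∃ t ∈ P179B.inertialGroup D b, ∀ n ∈ P179B.inertialGroup D b, ∃ i : ℕ,
      t ^ i * n ∈ Subgroup.centralizer (D : Set G)) →
    P179C.numWeightsIn p red B = P179B.inertialIndex D b :=
  fun _ _ _ _ _ _ red _ _ _ _ hB _ hD hab _ hb hbB hcyc =>
    weights_eq' red hB hD hab hb hbB hcyc

end Vale.P179.H999
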