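import Vale.Agent.P179.R2.H12.Tr4
import Vale.Agent.P179.H999.AllW

/-!
# IND: the blocks of subgroups `H ≥ D C_G(D)` below a block with abelian defect group `D`
-/

namespace Vale.P179.H999

open P179H524 P179C P179A Finset P179P P179Y Subgroup P179H12

open P179B (inertialGroup inertialIndex regularElements)

open scoped Classical

universe u

section

variable {p : ℕ} [hp : Fact p.Prime] {k : Type u} [Field k] [IsAlgClosed k] [CharP k p]
  {G : Type} [Group G] [Fintype G] {D H : Subgroup G} {l : (G → k) → k}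

omit [IsAlgClosed k] [CharP k p] hp in
/-- the functional restricted to `H` is the functional of the block of `H` -/
theorem low_cf {b : MonoidAlgebra k H} (hlb : Low H l b) (z : H → k) (hz : IsCF z) :
    lres H l z = centralChar b (mkF z) := by
  unfold lres
  rw [hlb _ (invOn_ext0 hz)]
  congr 2
  funext h
  exact ext_coe H z h

omit [IsAlgClosed k] [CharP k p] hp in
/-- a pair lies below a block if its functional agrees with the block on class functions -/
theorem inducesTo_of_BP {B : MonoidAlgebra k G} (hl : BP p D l)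
    (hlz : ∀ z : G → k, IsCF z → l z = centralChar B (mkF z))
    {β : MonoidAlgebra k (centralizer (D : Set G))} (hlow : Low (centralizer (D : Set G)) l β) :
    InducesTo β B := by
  intro z hz
  have hzcf : IsCF (fun g => z.coeff g) := (P179C.mem_center_iff _).1 hz
  have htr : trunc (centralizer (D : Set G)) z =
      mkF (fun h : centralizer (D : Set G) => cutC D (fun g => z.coeff g) h) := by
    ext h
    rw [coeff_mkF, coeff_trunc]
    unfold cutC
    rw [if_pos h.2]
  rw [htr, ← hlow _ (invOn_cutC D fun c _ x => hzcf c x), hl.cut, hlz _ hzcf, mkF_coeff]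

/-- **(IND)** the block of `H` below the pair `(D, l)`: it has defect group `D`, and its inertial
quotient is `E ∩ H` -/
theorem ind_low (hl : BP p D l) (hD : IsPGroup p D) (hab : ∀ x ∈ D, ∀ y ∈ D, x * y = y * x)
    (hT : ¬ p ∣ (centralizer (D : Set G)).relIndex (stabT D l))
    (hDH : D ≤ H) (hCH : centralizer (D : Set G) ≤ H)
    {b : MonoidAlgebra k H} (hb : IsBlock b) (hlb : Low H l b) :
    IsDefectGroup b (D.subgroupOf H) ∧
    ∃ β' : MonoidAlgebra k (centralizer ((D.subgroupOf H : Subgroup H) : Set H)),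
      IsBlock β' ∧ InducesTo β' b ∧
      (∀ n : H, n ∈ inertialGroup (D.subgroupOf H) β' ↔ (n : G) ∈ stabT D l) ∧
      (∀ n : H, n ∈ centralizer ((D.subgroupOf H : Subgroup H) : Set H) ↔
        (n : G) ∈ centralizer (D : Set G)) ∧
      inertialIndex (D.subgroupOf H) β' =
        (centralizer (D : Set G)).relIndex (stabT D l ⊓ H) := by
  refine ⟨isDefectGroup_low hl hD hab hT hDH hCH hb hlb, ?_⟩
  have hl' := hl.restrict hDH hCH
  have hD' : IsPGroup p (D.subgroupOf H) := hD.comap_subtype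
  have hab' : D.subgroupOf H ≤ centralizer ((D.subgroupOf H : Subgroup H) : Set H) := by
    intro x hx
    rw [mem_centralizer_iff]
    intro y hy
    exact Subtype.ext (hab _ (mem_subgroupOf.1 hy) _ (mem_subgroupOf.1 hx))
  obtain ⟨β', hβ', hlow⟩ := exists_blk (BP.mulH hl' hD' hab' le_rfl)
  have hT' := stabT_eq_inertialGroup hβ' hlow
  refine ⟨β', hβ', inducesTo_of_BP hl' (low_cf hlb) hlow, fun n => ?_, fun n => ?_, ?_⟩
  · rw [← hT', mem_stabT_lres hDH hCH]
  · exact mem_cent_subgroupOf hDH n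
  · unfold inertialIndex
    rw [← hT', relIndex_stabT_lres hDH hCH]

end

section Cyc

variable {G : Type*} [Group G] [Finite G]

/-- cyclicity of `T / C` passes to `(T ∩ H) / C` -/
theorem cyc_inf {T C H : Subgroup G} (hCH : C ≤ H)
    (hcyc : ∃ t ∈ T, ∀ n ∈ T, ∃ i : ℕ, t ^ i * n ∈ C) :
    ∃ t ∈ T ⊓ H, ∀ n ∈ T ⊓ H, ∃ i : ℕ, t ^ i * n ∈ C := by
  obtain ⟨t, ht, hgen⟩ := hcyc
  let K : Subgroup G := zpowers t ⊓ H
  have hK : IsCyclic K :=
    isCyclic_of_injective (Subgroup.inclusion (inf_le_left : K ≤ zpowers t))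
      (Subgroup.inclusion_injective _)
  obtain ⟨g, hg⟩ := hK.exists_generator
  have hgT : (g : G) ∈ T := by
    have h1 : (g : G) ∈ zpowers t := g.2.1
    exact (zpowers_le.2 ht) h1
  refine ⟨g, ⟨hgT, g.2.2⟩, fun n hn => ?_⟩
  obtain ⟨i, hi⟩ := hgen n hn.1
  have hiH : t ^ i ∈ H := by
    have h2 := mul_mem (hCH hi) (inv_mem hn.2)
    rwa [mul_inv_cancel_right] at h2
  have h3 : (⟨t ^ i, pow_mem (mem_zpowers t) i, hiH⟩ : K) ∈ Submonoid.powers g :=
    mem_powers_iff_mem_zpowers.2 (hg _)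
  obtain ⟨j, hj⟩ := h3
  refine ⟨j, ?_⟩
  have h4 : (g : G) ^ j = t ^ i := congrArg Subtype.val hj
  rw [h4]
  exact hi

end Cyc

section

variable {p : ℕ} [hp : Fact p.Prime] {k : Type u} [Field k] [IsAlgClosed k] [CharP k p]
  {G : Type} [Group G] [Fintype G] {D H : Subgroup G} {l : (G → k) → k}

omit [IsAlgClosed k] [CharP k p] [Fintype G] hp in
/-- cyclicity of the inertial quotient passes to the blocks `b_H` -/
theorem cyc_low [Finite G] (hCH : centralizer (D : Set G) ≤ H)
    (hcyc : ∃ t ∈ stabT D l, ∀ n ∈ stabT D l, ∃ i : ℕ, t ^ i * n ∈ centralizer (D : Set G))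
    {β' : MonoidAlgebra k (centralizer ((D.subgroupOf H : Subgroup H) : Set H))}
    (h1 : ∀ n : H, n ∈ inertialGroup (D.subgroupOf H) β' ↔ (n : G) ∈ stabT D l)
    (h2 : ∀ n : H, n ∈ centralizer ((D.subgroupOf H : Subgroup H) : Set H) ↔
        (n : G) ∈ centralizer (D : Set G)) :
    ∃ t ∈ inertialGroup (D.subgroupOf H) β', ∀ n ∈ inertialGroup (D.subgroupOf H) β', ∃ i : ℕ,
      t ^ i * n ∈ centralizer ((D.subgroupOf H : Subgroup H) : Set H) := by
  obtain ⟨t, ht, hgen⟩ := cyc_inf hCH hcyc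
  refine ⟨⟨t, ht.2⟩, (h1 _).2 ht.1, fun n hn => ?_⟩
  obtain ⟨i, hi⟩ := hgen n ⟨(h1 n).1 hn, n.2⟩
  exact ⟨i, (h2 _).2 (by simpa using hi)⟩

/-- **(IND)**, weights: the number of weights of `b_H` is `|E ∩ H|` -/
theorem weights_low (red : integralClosure ℤ ℂ →+* k) (hl : BP p D l) (hD : IsPGroup p D)
    (hab : ∀ x ∈ D, ∀ y ∈ D, x * y = y * x)
    (hT : ¬ p ∣ (centralizer (D : Set G)).relIndex (stabT D l))
    (hDH : D ≤ H) (hCH : centralizer (D : Set G) ≤ H)
    (hcyc : ∃ t ∈ stabT D l, ∀ n ∈ stabT D l, ∃ i : ℕ, t ^ i * n ∈ centralizer (D : Set G))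
    {b : MonoidAlgebra k H} (hb : IsBlock b) (hlb : Low H l b) :
    numWeightsIn p red b = (centralizer (D : Set G)).relIndex (stabT D l ⊓ H) := by
  obtain ⟨hdf, β', hβ', hind, h1, h2, h3⟩ := ind_low hl hD hab hT hDH hCH hb hlb
  rw [weights_eq' red hb hdf (fun x hx y hy => Subtype.ext
    (hab _ (mem_subgroupOf.1 hx) _ (mem_subgroupOf.1 hy))) hβ' hind (cyc_low hCH hcyc h1 h2), h3]

/-- **(IND)**, block version: for every block `B` with abelian defect group `D`, block `β` of
`C_G(D)` inducing `B`, and every `H ≥ C_G(D)` there is a block `b` of `H` below the pair; the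
hypotheses of the signature theorem pass to `b`. -/
theorem ind {B : MonoidAlgebra k G} (hB : IsBlock B) (hD : IsDefectGroup B D)
    (hab : ∀ x ∈ D, ∀ y ∈ D, x * y = y * x)
    {β : MonoidAlgebra k (centralizer (D : Set G))} (hβ : IsBlock β) (hβB : InducesTo β B)
    (hcyc : ∃ t ∈ inertialGroup D β, ∀ n ∈ inertialGroup D β, ∃ i : ℕ,
      t ^ i * n ∈ centralizer (D : Set G))
    (hCH : centralizer (D : Set G) ≤ H) :
    ∃ l : (G → k) → k, BP p D l ∧ stabT D l = inertialGroup D β ∧
      ¬ p ∣ (centralizer (D : Set G)).relIndex (stabT D l) ∧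
      (∀ z : G → k, IsCF z → l z = centralChar B (mkF z)) ∧
      Low (centralizer (D : Set G)) l β ∧
      (∃ b : MonoidAlgebra k H, IsBlock b ∧ Low H l b) ∧
      ∀ b : MonoidAlgebra k H, IsBlock b → Low H l b →
        IsDefectGroup b (D.subgroupOf H) ∧
        ∃ β' : MonoidAlgebra k (centralizer ((D.subgroupOf H : Subgroup H) : Set H)),
          IsBlock β' ∧ InducesTo β' b ∧
          (∀ n : H, n ∈ inertialGroup (D.subgroupOf H) β' ↔ (n : G) ∈ inertialGroup D β) ∧
          (∀ n : H, n ∈ centralizer ((D.subgroupOf H : Subgroup H) : Set H) ↔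
            (n : G) ∈ centralizer (D : Set G)) ∧
          inertialIndex (D.subgroupOf H) β' =
            (centralizer (D : Set G)).relIndex (inertialGroup D β ⊓ H) ∧
          ∃ t ∈ inertialGroup (D.subgroupOf H) β', ∀ n ∈ inertialGroup (D.subgroupOf H) β',
            ∃ i : ℕ, t ^ i * n ∈ centralizer ((D.subgroupOf H : Subgroup H) : Set H) := by
  obtain ⟨l, hl, hlz, hlow⟩ := exists_BP_of_subblock (p := p) hB hD hab hβ hβB
  have hTe := stabT_eq_inertialGroup hβ hlow
  have hDp : IsPGroup p D := (exists_BP_of_block (p := p) B hB D hD).1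
  have hT := hT_of_block hB hD hDp hab hl hlz
  have hDC : D ≤ centralizer (D : Set G) := fun x hx =>
    mem_centralizer_iff.2 fun y hy => hab y hy x hx
  refine ⟨l, hl, hTe, hT, hlz, hlow, exists_blk (BP.mulH hl hDp hDC hCH), fun b hb hlb => ?_⟩
  obtain ⟨hdf, β', hβ', hind, h1, h2, h3⟩ := ind_low hl hDp hab hT (hDC.trans hCH) hCH hb hlb
  refine ⟨hdf, β', hβ', hind, fun n => ?_, h2, ?_, ?_⟩
  · rw [h1, hTe]
  · rw [h3, hTe]
  · exact cyc_low hCH (by rw [hTe]; exact hcyc) h1 h2

end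

end Vale.P179.H999
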