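import Vale.Agent.P179.H166.K6g

/-!
# The weights of the principal block attached to an abelian Sylow subgroup

The characters of `N_G(P)/C_G(P)` give weights of the principal block.
-/

namespace Vale.P179.H999

open P179H524 P179C P179A Finset P179P P179Y Subgroup

open P179X (IsPrincipal autOrd)

open scoped Classical

section Comm

/-- the irreducible characters of a finite commutative group are linear -/
theorem deg_one_of_comm {K : Type*} [Group K] [Finite K] (hK : ∀ x y : K, x * y = y * x)
    (χ : Irr K) : χ.1 1 = 1 := by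
  have := Fintype.ofFinite K
  obtain ⟨n, ρ, hρ, hχ⟩ := χ.2
  have hsc : ∀ g : K, ∃ l : ℂ, ρ g = algebraMap ℂ _ l := fun g =>
    exists_scalar ρ hρ (ρ g) fun h => by rw [← map_mul, ← map_mul, hK]
  choose l hl using hsc
  have hn : (0 : ℕ) < n := by
    rcases Nat.eq_zero_or_pos n with h0 | h0
    · subst h0
      exact absurd (nontrivial_of_irr hρ) (by simp)
    · exact h0
  have hch : ∀ g, χ.1 g = l g * n := by
    intro g
    rw [← hχ, Representation.character, hl g, Algebra.algebraMap_eq_smul_one, map_smul,
      LinearMap.trace_one, Module.finrank_fin_fun, smul_eq_mul]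
  have hll : ∀ g, l g * l g⁻¹ = 1 := by
    intro g
    have h2 : ρ g * ρ g⁻¹ = 1 := by rw [← map_mul, mul_inv_cancel, map_one]
    rw [hl g, hl g⁻¹, ← map_mul] at h2
    have h3 := congrArg (LinearMap.trace ℂ (Fin n → ℂ)) h2
    rw [Algebra.algebraMap_eq_smul_one, map_smul, LinearMap.trace_one,
      Module.finrank_fin_fun, smul_eq_mul] at h3
    have h4 : (n : ℂ) ≠ 0 := by exact_mod_cast hn.ne'
    exact mul_right_cancel₀ h4 (by rw [h3, one_mul])
  have h5 := row_orth χ χ
  rw [if_pos rfl] at h5
  have h6 : ∀ g : K, χ.1 g * χ.1 g⁻¹ = (n : ℂ) * n := by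
    intro g
    rw [hch, hch]
    calc l g * n * (l g⁻¹ * n) = (l g * l g⁻¹) * (n * n) := by ring
      _ = n * n := by rw [hll, one_mul]
  rw [Finset.sum_congr rfl fun g _ => h6 g, Finset.sum_const, Finset.card_univ,
    nsmul_eq_mul] at h5
  have h7 : (Fintype.card K : ℂ) ≠ 0 := by exact_mod_cast Fintype.card_ne_zero
  have h8 : (n : ℂ) * n = 1 := mul_left_cancel₀ h7 (by rw [h5, mul_one])
  have h9 : n * n = 1 := by exact_mod_cast h8
  have h10 : n = 1 := Nat.eq_one_of_mul_eq_one_right h9
  rw [← hχ, Representation.char_one, h10]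
  simp

/-- the number of irreducible characters of a finite commutative group -/
theorem card_irr_of_comm (K : Type*) [Group K] [Finite K] (hK : ∀ x y : K, x * y = y * x) :
    Nat.card (Irr K) = Nat.card K := by
  have := Fintype.ofFinite K
  have h1 : ∀ χ : Irr K, χ.1 1 = 1 := deg_one_of_comm hK
  have h2 := sum_irr_one (G := K) 1
  rw [if_pos rfl] at h2
  simp only [h1, mul_one, Finset.sum_const, Finset.card_univ, nsmul_eq_mul] at h2
  rw [Nat.card_eq_fintype_card, Nat.card_eq_fintype_card]
  exact_mod_cast h2

end Comm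

section Lam

variable {p : ℕ} [hp : Fact p.Prime] {k : Type*} [Field k] [CharP k p]
  (red : integralClosure ℤ ℂ →+* k) {N : Type*} [Group N] [Fintype N]

/-- the central character of a character of `N/C`, on functions supported on `C` -/
theorem lam_supp (C : Subgroup N) [C.Normal] {χ : N ⧸ C → ℂ} (hχ : IsIrrChar χ) {z : N → k}
    (hz : IsCF z) (h0 : ∀ x, x ∉ C → z x = 0) :
    lam red (fun n => χ (QuotientGroup.mk' C n)) z = ∑ x, z x := by
  rw [← lam_push red (QuotientGroup.mk' C) (QuotientGroup.mk'_surjective C) hχ hz]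
  have h1 : pushR (QuotientGroup.mk' C) z = (∑ x, z x) • fun c => if c = 1 then 1 else 0 := by
    funext c
    simp only [Pi.smul_apply, smul_eq_mul]
    unfold pushR
    by_cases hc : c = 1
    · subst hc
      rw [if_pos rfl, mul_one]
      refine Finset.sum_congr rfl fun x _ => ?_
      by_cases hx : x ∈ C
      · have hx1 : QuotientGroup.mk' C x = 1 := (QuotientGroup.eq_one_iff x).2 hx
        rw [if_pos hx1]
      · rw [h0 x hx, ite_self]
    · rw [if_neg hc, mul_zero]
      refine Finset.sum_eq_zero fun x _ => ?_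
      split_ifs with hx
      · refine h0 x fun hxC => hc ?_
        rw [← hx]
        exact (QuotientGroup.eq_one_iff x).2 hxC
      · rfl
  have h2 : lam red χ (fun c : N ⧸ C => if c = 1 then (1 : k) else 0) = 1 := by
    convert lam_one red hχ
  rw [h1, lam_smul, h2, mul_one]

end Lam

section

variable {p : ℕ} [hp : Fact p.Prime] {k : Type*} [Field k] [IsAlgClosed k] [CharP k p]
  (red : integralClosure ℤ ℂ →+* k) {G : Type} [Group G] [Fintype G]

omit [IsAlgClosed k] in
/-- the sum of the values of a class function, modulo `p` -/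
theorem sum_cent (P : Sylow p G) {z : G → k} (hz : IsCF z) :
    ∑ g : G, z g = ∑ g : G, if g ∈ centralizer ((P : Subgroup G) : Set G) then z g else 0 := by
  let ph : (P : Subgroup G) →* Equiv.Perm G :=
    (MulAut.toPerm G).comp (MulAut.conj.comp (P : Subgroup G).subtype)
  have hph : ∀ (q : (P : Subgroup G)) (x : G), ph q x = q * x * (q : G)⁻¹ := fun q x => rfl
  have hF : ∑ g : G, (if g ∈ centralizer ((P : Subgroup G) : Set G) then 0 else z g) = 0 := by
    refine sum_eq_zero_of_perm p P.2 ph _ ?_ ?_
    · intro q x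
      have h1 : q * x * (q : G)⁻¹ ∈ centralizer ((P : Subgroup G) : Set G) ↔
          x ∈ centralizer ((P : Subgroup G) : Set G) := by
        have hqN : (q : G) ∈ normalizer ((P : Subgroup G) : Set G) := le_normalizer q.2
        have h2 := (CN_normal (P : Subgroup G))
        constructor
        · intro h
          rw [mem_centralizer_iff] at h ⊢
          intro a ha
          have h3 := h (q * a * (q : G)⁻¹) (mul_mem (mul_mem q.2 ha) (inv_mem q.2))
          have h4 : (q : G) * (a * x) * (q : G)⁻¹ = q * (x * a) * (q : G)⁻¹ := by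
            calc (q : G) * (a * x) * (q : G)⁻¹ = (q * a * (q : G)⁻¹) * (q * x * (q : G)⁻¹) := by
                  group
              _ = (q * x * (q : G)⁻¹) * (q * a * (q : G)⁻¹) := h3
              _ = _ := by group
          exact mul_left_cancel (mul_right_cancel h4)
        · intro h
          rw [mem_centralizer_iff] at h ⊢
          intro a ha
          have h3 := h ((q : G)⁻¹ * a * q) (mul_mem (mul_mem (inv_mem q.2) ha) q.2)
          calc a * (q * x * (q : G)⁻¹) = q * (((q : G)⁻¹ * a * q) * x) * (q : G)⁻¹ := by group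
            _ = q * (x * ((q : G)⁻¹ * a * q)) * (q : G)⁻¹ := by rw [h3]
            _ = _ := by group
      simp only [hph, h1, hz (q : G) x]
    · intro x hx
      rw [if_pos]
      rw [mem_centralizer_iff]
      intro a ha
      exact mul_inv_eq_iff_eq_mul.1 (hx ⟨a, ha⟩)
  have h1 : ∀ g : G, z g = (if g ∈ centralizer ((P : Subgroup G) : Set G) then 0 else z g) +
      if g ∈ centralizer ((P : Subgroup G) : Set G) then z g else 0 := by
    intro g
    split_ifs <;> simp
  rw [Finset.sum_congr rfl fun g _ => h1 g, Finset.sum_add_distrib, hF, zero_add]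

/-- **lower bound for the number of weights of the principal block** -/
theorem card_irr_le_numWeightsIn {B : MonoidAlgebra k G} (hB : IsBlock B) (hpB : IsPrincipal B)
    (P : Sylow p G) (hab : ∀ a ∈ P, ∀ b ∈ P, a * b = b * a)
    (hK : ∀ x y : (normalizer ((P : Subgroup G) : Set G)) ⧸ CN (P : Subgroup G), x * y = y * x) :
    Nat.card (Irr ((normalizer ((P : Subgroup G) : Set G)) ⧸ CN (P : Subgroup G))) ≤
      numWeightsIn p red B := by
  set D : Subgroup G := (P : Subgroup G) with hD
  have hDN : D ≤ normalizer (D : Set G) := le_normalizer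
  have hab' : D ≤ centralizer (D : Set G) := by
    intro x hx
    rw [mem_centralizer_iff]
    exact fun y hy => hab y hy x hx
  have hle : D.subgroupOf (normalizer (D : Set G)) ≤ CN D := by
    intro x hx
    exact mem_subgroupOf.2 (hab' (mem_subgroupOf.1 hx))
  -- the orders
  have hcard : ¬ p ∣ Nat.card (NQ D) := by
    intro hd
    have h1 : Nat.card (NQ D) = D.relIndex (normalizer (D : Set G)) := rfl
    rw [h1] at hd
    exact P.not_dvd_index (hd.trans (Dvd.intro _ (Subgroup.relIndex_mul_index le_normalizer)))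
  let π : NQ D →* (normalizer (D : Set G)) ⧸ CN D :=
    QuotientGroup.map _ _ (MonoidHom.id _) hle
  have hπ : Function.Surjective π := by
    intro x
    obtain ⟨n, rfl⟩ := QuotientGroup.mk_surjective x
    exact ⟨QuotientGroup.mk n, rfl⟩
  have hπmk : ∀ n : normalizer (D : Set G),
      π (QuotientGroup.mk n) = QuotientGroup.mk' (CN D) n := fun n => rfl
  have hdz : ∀ ψ : Irr ((normalizer (D : Set G)) ⧸ CN D),
      IsDefectZeroChar p (fun x : NQ D => ψ.1 (π x)) := by
    intro ψ
    refine ⟨ψ.2.comp π hπ, 1, ?_, ?_⟩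
    · change ψ.1 (π 1) = _
      rw [map_one, deg_one_of_comm hK, Nat.cast_one]
    · rw [Nat.factorization_eq_zero_of_not_dvd hcard, Nat.factorization_one]
      rfl
  let W : Irr ((normalizer (D : Set G)) ⧸ CN D) → P179H524.Weight p G :=
    fun ψ => ⟨D, P.2, fun x => ψ.1 (π x), hdz ψ⟩
  have hW : ∀ ψ, WeightInBlock red (W ψ) B := by
    intro ψ
    rw [weightInBlock_iff_mu red (W ψ) P179C.blockHomStmt P179C.homBlockStmt B]
    intro z
    have hzcf : IsCF (fun g => z.1.coeff g) := (P179C.mem_center_iff _).1 z.2
    rw [muHom_apply, centralChar_principal hB hpB z.1 z.2, augHom_apply,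
      finsum_eq_sum_of_fintype, sum_cent P hzcf]
    have hzN : IsCF (fun n : normalizer (D : Set G) => z.1.coeff (n : G)) := fun g x => hzcf g x
    have hzC : IsCF (fun n : normalizer (D : Set G) =>
        if (n : G) ∈ centralizer (D : Set G) then z.1.coeff (n : G) else 0) := by
      intro g x
      have h1 : ((g * x * g⁻¹ : normalizer (D : Set G)) : G) ∈ centralizer (D : Set G) ↔
          (x : G) ∈ centralizer (D : Set G) := by
        constructor
        · intro h
          have h2 := (CN_normal D).conj_mem (g * x * g⁻¹) (mem_subgroupOf.2 h) g⁻¹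
          have h3 : g⁻¹ * (g * x * g⁻¹) * g⁻¹⁻¹ = x := by group
          rw [h3] at h2
          exact mem_subgroupOf.1 h2
        · intro h
          exact mem_subgroupOf.1 ((CN_normal D).conj_mem x (mem_subgroupOf.2 h) g)
      have h2 := hzN g x
      dsimp only at h2 ⊢
      simp only [h1, h2]
    have h1 := lam_wt_congr (p := p) red (W ψ) hzN hzC fun n hn => by
      have hn' : (n : G) ∈ centralizer (D : Set G) := hn
      rw [if_pos hn']
    rw [h1]
    have h2 : Weight.infl (W ψ) = fun n => ψ.1 (QuotientGroup.mk' (CN D) n) := rfl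
    rw [h2]
    refine (lam_supp red (CN D) ψ.2 hzC ?_).trans ?_
    · intro x hx
      rw [if_neg (fun h => hx (mem_subgroupOf.2 h))]
    · refine Finset.sum_of_injOn (fun n : normalizer (D : Set G) => (n : G))
        (fun a _ b _ h => Subtype.ext h) (fun _ _ => by simp) ?_ (fun _ _ => rfl)
      intro g _ hg
      rw [if_neg]
      intro hgC
      refine hg ⟨⟨g, ?_⟩, by simp, rfl⟩
      rw [mem_normalizer_iff]
      rw [mem_centralizer_iff] at hgC
      intro a
      constructor
      · intro ha
        rw [← hgC a ha, mul_inv_cancel_right]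
        exact ha
      · intro ha
        have h3 := hgC _ ha
        have h4 : g * a = g * (g * a * g⁻¹) := by
          rw [← h3, mul_assoc, inv_mul_cancel, mul_one]
        rw [mul_left_cancel h4]
        exact ha
  have : Finite (Quot fun a b : {w : P179H524.Weight p G // WeightInBlock red w B} =>
      Weight.Conj a.1 b.1) := inferInstance
  refine Nat.card_le_card_of_injective (fun ψ => Quot.mk _ ⟨W ψ, hW ψ⟩) ?_
  intro φ ψ h
  have hE : Equivalence (fun a b : {w : P179H524.Weight p G // WeightInBlock red w B} =>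
      P179H524.Weight.Conj a.1 b.1) :=
    ⟨fun a => (conj_equivalence p G).refl _, fun h => (conj_equivalence p G).symm h,
      fun h h' => (conj_equivalence p G).trans h h'⟩
  obtain ⟨g, hg1, hg2⟩ := (hE.quot_mk_eq_iff _ _).1 h
  have hgN : g ∈ normalizer (D : Set G) := by
    rw [mem_normalizer_iff]
    intro x
    have hg1' : D = D.map (MulAut.conj g).toMonoidHom := hg1
    constructor
    · intro hx
      rw [hg1']
      exact ⟨x, hx, rfl⟩
    · intro hx
      rw [hg1'] at hx
      obtain ⟨y, hy, hyx⟩ := hx
      have h2 : g * y * g⁻¹ = g * x * g⁻¹ := hyx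
      rw [← mul_left_cancel (mul_right_cancel h2)]
      exact hy
  apply Subtype.ext
  funext c
  obtain ⟨n, rfl⟩ := QuotientGroup.mk_surjective c
  have h3 := hg2 n ((⟨g, hgN⟩ : normalizer (D : Set G)) * n * (⟨g, hgN⟩)⁻¹) rfl
  have h4 := ψ.conj (QuotientGroup.mk (⟨g, hgN⟩ : normalizer (D : Set G)))
    (QuotientGroup.mk n)
  have h5 : ψ.1 (QuotientGroup.mk ((⟨g, hgN⟩ : normalizer (D : Set G)) * n * (⟨g, hgN⟩)⁻¹)) =
      ψ.1 (QuotientGroup.mk n) := h4
  exact h3.symm.trans h5

end

end Vale.P179.H999
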